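import Vale.Agent.Lib.P166U.E

/-!
# P166: the large-`N` law of the pressure depends only on `(β, μ)`

`pressure β lam U` is `P_N(β)` for `J = Uᵀ Λ U`, `Λ = diag lam`; `Spectra μ lam` are the standing
assumptions on the eigenvalues.  Haar measure on `O(N)`: a left invariant Borel probability measure.
-/

namespace Vale.Agent.Results.P166.EigenvalueUniversality

open MeasureTheory Filter Topology Matrix Vale.Agent.P166U

theorem result (μ : Measure ℝ) [IsProbabilityMeasure μ] (_hμ : IsCompact μ.support)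
    [∀ N : ℕ, MeasurableSpace (orthogonalGroup (Fin N) ℝ)]
    [∀ N : ℕ, BorelSpace (orthogonalGroup (Fin N) ℝ)]
    (ν : ∀ N : ℕ, Measure (orthogonalGroup (Fin N) ℝ)) [∀ N, IsProbabilityMeasure (ν N)]
    [∀ N, (ν N).IsMulLeftInvariant] (β : ℝ) (hβ : 0 ≤ β)
    (lam : ∀ N : ℕ, Fin N → ℝ) (h : Spectra μ lam) :
    (∀ lam' : ∀ N : ℕ, Fin N → ℝ, Spectra μ lam' →
      ∃ ε : ℕ → ℝ, Tendsto ε atTop (𝓝 0) ∧ ∀ (N : ℕ) (φ : ℝ → ℝ), LipschitzWith 1 φ →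
        |∫ U : orthogonalGroup (Fin N) ℝ, φ (pressure β (lam N) U) ∂ν N -
          ∫ U : orthogonalGroup (Fin N) ℝ, φ (pressure β (lam' N) U) ∂ν N| ≤ ε N) ∧
    (∀ (Ω : Type) [MeasurableSpace Ω] (ℙ : Measure Ω) [IsProbabilityMeasure ℙ]
      (X : ∀ N : ℕ, Ω → Fin N → ℝ), (∀ N, Measurable (X N)) →
      (∀ᵐ ω ∂ℙ, Spectra μ fun N => X N ω) → ∀ c : ℝ,
      ((∀ δ : ℝ, 0 < δ → Tendsto (fun N => (ℙ.prod (ν N))
        {p : Ω × orthogonalGroup (Fin N) ℝ | δ ≤ |pressure β (X N p.1) p.2 - c|}) atTop (𝓝 0)) ↔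
      (∀ δ : ℝ, 0 < δ → Tendsto (fun N => ν N
        {U : orthogonalGroup (Fin N) ℝ | δ ≤ |pressure β (lam N) U - c|}) atTop (𝓝 0)))) :=
  ⟨fun _ h' => law_close ν h h' hβ, fun _ _ ℙ _ X hX hS c => random ν ℙ h hβ X hX hS c⟩

end Vale.Agent.Results.P166.EigenvalueUniversality
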