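import Vale.Agent.Lib.P166V.Final

/-!
# P166: the pressure is asymptotically deterministic and depends only on `(β, μ)`

`haar N` is the left invariant Borel probability measure on `O(N)`.
-/

namespace Vale.Agent.Results.P166.SelfAveraging

open MeasureTheory Filter Topology Matrix ProbabilityTheory Vale.Agent.P166V

theorem result [∀ N : ℕ, MeasurableSpace (orthogonalGroup (Fin N) ℝ)]
    [∀ N : ℕ, BorelSpace (orthogonalGroup (Fin N) ℝ)]
    (haar : ∀ N : ℕ, Measure (orthogonalGroup (Fin N) ℝ)) [∀ N, IsProbabilityMeasure (haar N)]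
    [∀ N, (haar N).IsMulLeftInvariant] :
    (∀ β : ℝ, 0 ≤ β → ∀ (N : ℕ) (lam : Fin N → ℝ) (L : ℝ), (∀ i, |lam i| ≤ L) →
      Var[fun U => isingPressure β (coupling lam U); haar N] ≤ 48 * β ^ 2 * L ^ 2 / N) ∧
    ∀ μ : Measure ℝ, IsProbabilityMeasure μ → IsCompact μ.support →
      ∃ a : ℝ → ℕ → ℝ, ∀ β : ℝ, 0 ≤ β →
      ∀ (Ω : Type) [MeasurableSpace Ω] (P : Measure Ω) [IsProbabilityMeasure P]
        (X : ∀ N : ℕ, Ω → Fin N → ℝ) (U : ∀ N : ℕ, Ω → orthogonalGroup (Fin N) ℝ),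
        (∀ N, Measurable (X N)) → (∀ N, Measurable (U N)) → (∀ N, P.map (U N) = haar N) →
        (∀ N, IndepFun (X N) (U N) P) → (∀ᵐ ω ∂P, Admissible μ fun N => X N ω) →
        TendstoInMeasure P (fun N ω => isingPressure β (coupling (X N ω) (U N ω)) - a β N)
          atTop (fun _ => 0) :=
  main haar

end Vale.Agent.Results.P166.SelfAveraging
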